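import Mathlib
import Vale.Agent.P171.Defs
import Vale.Agent.P171.Transfer

set_option autoImplicit false

open Vale.Agent.P171

namespace Vale.Agent.Results.P171.Main

/-- There is a Borel measurable, bounded (in particular locally bounded on `(0,∞)`), stable and
tempered radial pair potential on `ℝ³` that has a phase transition: for some `β > 0` the infinite
volume limit `Π(β,z)` exists for all `z > 0` and `z ↦ Π(β,z)` is not differentiable at some
point `z₀ > 0`. -/
theorem result :
    ∃ φ : ℝ → ℝ, Measurable φ ∧ (∃ C : ℝ, ∀ r : ℝ, |φ r| ≤ C) ∧ LocallyBounded φ ∧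
      IsStable φ ∧ IsTempered φ ∧ HasPhaseTransitionA φ :=
  Vale.Agent.P171.main

end Vale.Agent.Results.P171.Main
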